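import Vale.Agent.P208.Union

namespace Vale.Agent.Results.P208.NoDimensionReduction

open Metric
open Vale.Agent.P208

/-- A doubling subset of `ℓ2` with no bi-Lipschitz embedding into any `ℝ^k`. -/
theorem result : ∃ X : Set (lp (fun _ : ℕ => ℝ) 2),
    (∃ lam : ℕ, ∀ x ∈ X, ∀ r : ℝ, 0 < r → ∃ C : Finset (lp (fun _ : ℕ => ℝ) 2),
      (C : Set (lp (fun _ : ℕ => ℝ) 2)) ⊆ X ∧ C.card ≤ lam ∧
      X ∩ ball x r ⊆ ⋃ y ∈ C, ball y (r / 2)) ∧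
    ∀ k : ℕ, ¬ ∃ f : X → EuclideanSpace ℝ (Fin k), ∃ a : ℝ, 0 < a ∧ ∃ D : ℝ, ∀ x y : X,
      a * dist x y ≤ dist (f x) (f y) ∧ dist (f x) (f y) ≤ D * a * dist x y := by
  refine ⟨bad, ?_, fun k => ?_⟩
  · obtain ⟨lam, h⟩ := bad_doubling
    exact ⟨lam, fun x hx r hr => h x hx r hr⟩
  · rintro ⟨f, a, ha, D, hD⟩
    exact bad_no_embedding k ⟨f, a, ha, D, hD⟩

end Vale.Agent.Results.P208.NoDimensionReduction
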